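import Vale.Agent.P022S.Crv.Main

/-!
P022S: the representation over a curve, in its faithful form.
-/

set_option linter.all false

noncomputable section

namespace Vale.Agent.P022S.Crv

open NumberField IsLocalRing
open Vale.Agent.P022 Vale.Agent.P022.H346 Vale.Agent.P022S.R Vale.Agent.P022S.Loc
open Vale.Agent.P022S.Uni
open Vale.Agent.P027M.S (Inert mx)
open Vale.Agent.P022D.Sel (M2 IsDec)
open Vale.Agent.P022E.Loc (Pl)
open Vale.Agent.P022G.Word (wd)

section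
variable {A F : Type} [CommRing A] [Field F] {n : ℕ} {γ : Fin n → GQ} {p : Finset (Fin n) → A}
  {r : Fin n → A} {I : Set GQ} [IsLocalRing A] [IsNoetherianRing A]
  [IsAdicComplete (maximalIdeal A) A] [Finite (ResidueField A)] {𝒬 : Cls A} {K : Ideal A}
  {ta da : GQ → A}

/-- **the representation over a curve** -/
theorem crvF (hU : Un 𝒬 K ta da)
    (hP : ∀ (B : Type) [CommRing B] ψ t d, 𝒬 B ψ t d → Pf F γ p r I ψ t d)
    (hK : ∀ f, (∀ (B : Type) [CommRing B] ψ t d, 𝒬 B ψ t d → ψ f = 0) → f ∈ K)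
    (q : Ideal A) (hq : q.IsPrime) (hKq : K ≤ q) (h2 : (2 : A) ∈ q)
    (hd : ringKrullDim (A ⧸ q) = 1) (E : Set GQ) (hE : ∀ g ∈ E, da g - 1 ∈ q)
    (hD : ∀ (Γ : Type) [CommGroup Γ] (η : GQ →* Γ), IsOpen {g | η g = 1} →
      (∀ g, ∃ k : ℕ, η g ^ 2 ^ k = 1) → (∀ g ∈ E, η g = 1) → (∀ s ∈ I, η s = 1) → ∀ g, η g = 1) :
    ∃ (V : Type) (_ : CommRing V) (_ : IsDomain V) (_ : IsDiscreteValuationRing V) (_ : CharP V 2)
      (_ : IsAdicComplete (maximalIdeal V) V) (_ : Finite (ResidueField V)) (s : V)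
      (θ : A →+* V) (ρ : GQ →* Mdl.M2 V), Irreducible s ∧ RingHom.ker θ = q ∧
      (∀ f ∈ maximalIdeal A, θ f ∈ maximalIdeal V) ∧
      (∀ g, (ρ g).trace = θ (ta g) ∧ (ρ g).det = 1 ∧ θ (da g) = 1) ∧
      (∀ w, θ (p w) = (ρ (wd γ w)).trace) ∧ (∀ i, θ (r i) = 1) ∧
      (∀ g i j, s ∣ ρ g i j - (1 : Mdl.M2 V) i j) ∧ (∀ g ∈ I, ρ g = 1) ∧
      (∀ g, (∀ z, (ρ (z * g)).trace = (ρ z).trace) → ρ g = 1) ∧
      ∀ k : ℕ, IsOpen {g | (ρ g).map (Ideal.Quotient.mk (Ideal.span {s ^ k})) = 1} := by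
  obtain ⟨V0, _, _, _, _, θ0, k0, l0, _, _⟩ := P022G.Curve.curveP q hq h2 hd
  have hK0 : K ≤ RingHom.ker θ0 := k0 ▸ hKq
  obtain ⟨D, d1, T, e1, e2, e3⟩ := hU.tf hP hK θ0 hK0
  have mx := hU.max hP hK fun e => hq.ne_top (top_le_iff.1 (e ▸ hKq))
  have pw : ∀ {W : Type} [CommRing W] [IsLocalRing W] (θ : A →+* W), K ≤ RingHom.ker θ →
      (∀ f ∈ maximalIdeal A, θ f ∈ maximalIdeal W) → ∀ k, ∀ f ∈ K ⊔ maximalIdeal A ^ k,
      θ f ∈ maximalIdeal W ^ k := fun θ h1 h2 k =>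
    (sup_le (fun f hf => by rw [Ideal.mem_comap, h1 hf]; exact zero_mem _)
      ((Ideal.pow_right_mono h2 k).trans (Ideal.le_comap_pow θ k)) :
      _ ≤ (maximalIdeal _ ^ k).comap θ)
  have hdet : ∀ g, θ0 (da g) = 1 := fun g => by
    rw [← sub_eq_zero]
    refine IsHausdorff.haus (I := maximalIdeal V0) inferInstance _ fun k => ?_
    rw [SModEq.zero, smul_eq_mul, Ideal.mul_top, ← Ideal.Quotient.eq, map_one]
    let η : GQ →* (V0 ⧸ maximalIdeal V0 ^ k)ˣ :=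
      (Units.map (Ideal.Quotient.mk (maximalIdeal V0 ^ k)).toMonoidHom).comp D
    have hη : ∀ g, η g = 1 ↔ θ0 (da g) - 1 ∈ maximalIdeal V0 ^ k := fun g => by
      rw [Units.ext_iff, ← Ideal.Quotient.eq, map_one, ← d1]
      exact Iff.rfl
    rw [← map_one (Ideal.Quotient.mk (maximalIdeal V0 ^ k)), Ideal.Quotient.eq, ← hη]
    obtain ⟨U, -, hUo, h⟩ := hU.opn k
    refine hD _ η (Subgroup.isOpen_mono (H₁ := U) (H₂ := η.ker) (fun u hu => (hη u).2 ?_) hUo)
      (fun g => ⟨k, ?_⟩) (fun g hg => (hη g).2 ?_) (fun s hs => ?_) g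
    · have := pw θ0 hK0 (fun f hf => (l0 f).2 hf) k _ (h u hu).2
      rwa [map_sub, map_one] at this
    · have : Fact (Nat.Prime 2) := ⟨Nat.prime_two⟩
      rw [← map_pow, hη, ← d1, map_pow, Units.val_pow_eq_pow_val, d1, ← one_pow (2 ^ k),
        ← sub_pow_char_pow]
      refine Ideal.pow_le_pow_right (Nat.lt_two_pow_self).le (Ideal.pow_mem_pow ?_ _)
      have := (l0 _).2 (mx g).2
      rwa [map_sub, map_one] at this
    · have := hE g hg
      rw [← k0, RingHom.mem_ker, map_sub, map_one] at this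
      rw [this]
      exact zero_mem _
    · rw [MonoidHom.comp_apply, (e3 s hs).2, map_one]
  obtain ⟨V, _, _, _, _, _, _, f, s, ρ, c, inj, lf, hs, r1, r2, c0, r3⟩ :=
    Mdl.model T (fun g => (d1 g).trans (hdet g)) fun g => (l0 _).2 (mx g).1
  have hloc : ∀ x ∈ maximalIdeal A, (f.comp θ0) x ∈ maximalIdeal V := fun x hx =>
    lf _ ((l0 x).2 hx)
  have hker : RingHom.ker (f.comp θ0) = q := by
    rw [← RingHom.comap_ker, (RingHom.injective_iff_ker_eq_bot f).1 inj]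
    exact k0
  refine ⟨V, inferInstance, inferInstance, inferInstance, inferInstance, inferInstance,
    inferInstance, s, f.comp θ0, ρ, hs, hker, hloc, fun g => ⟨(r1 g).1, (r1 g).2, by
      rw [RingHom.comp_apply, hdet, map_one]⟩, fun w => by
      rw [(r1 _).1, RingHom.comp_apply, e1], fun i => by
      rw [RingHom.comp_apply, e2, hdet, map_one], r2, fun g hg => ?_, fun g hg => ?_,
    fun k => ?_⟩
  · rw [← map_one ρ]
    ext i j
    refine sub_eq_zero.1 (zero_dvd_iff.1 (r3 0 g 1 (fun z => ?_) i j))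
    have := N_mid T (e3 g hg) 1 z
    rw [one_mul] at this
    rw [this, sub_self]
    exact dvd_zero _
  · rw [← map_one ρ]
    ext i j
    refine sub_eq_zero.1 (zero_dvd_iff.1 (r3 0 g 1 (fun z => ?_) i j))
    rw [T.comm, one_mul, ← (r1 _).1, ← (r1 _).1, hg, sub_self]
    exact dvd_zero _
  · obtain ⟨m, u, hu⟩ := IsDiscreteValuationRing.eq_unit_mul_pow_irreducible c0 hs
    obtain ⟨U, -, hUo, h⟩ := hU.opn (m + k)
    let σ : GQ →* Mdl.M2 (V ⧸ Ideal.span {s ^ k}) :=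
      (Ideal.Quotient.mk (Ideal.span {s ^ k})).mapMatrix.toMonoidHom.comp ρ
    have e : {g | (ρ g).map (Ideal.Quotient.mk (Ideal.span {s ^ k})) = 1} =
        (σ.toHomUnits.ker : Set GQ) :=
      Set.ext fun g => ⟨fun e => Units.ext e, fun e => congrArg Units.val e⟩
    rw [e]
    refine Subgroup.isOpen_mono (H₁ := U) (fun g hg => Units.ext ?_) hUo
    show σ g = 1
    rw [← map_one σ]
    ext i j
    refine Ideal.Quotient.eq.2 (Ideal.mem_span_singleton.2 (r3 _ g 1 (fun z => ?_) i j))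
    have := pw (f.comp θ0) (hker ▸ hKq) hloc _ _ ((h g hg).1 1 z)
    rw [hs.maximalIdeal_eq, Ideal.span_singleton_pow, Ideal.mem_span_singleton, one_mul,
      map_sub] at this
    rw [hu, mul_assoc, ← pow_add, Units.mul_left_dvd]
    exact this

end

variable {O F : Type} [CommRing O] [Field F] {S : Dat O F} {L : Pl O}

/-- **the curve** -/
theorem crv1 [IsLocalRing O] [CharP F 2] {A : Type} [CommRing A] [IsLocalRing A]
    [IsNoetherianRing A] [IsAdicComplete (maximalIdeal A) A] [Finite (ResidueField A)]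
    {n : ℕ} {γ : Fin n → GQ} {p : Finset (Fin n) → A} {r : Fin n → A} {𝒬 : Cls A} {K : Ideal A}
    {ta da : GQ → A} (c : O →+* A) (hL : OkG L S) (h1 : ∀ g, S.rb g = 1) (hW : L.W = ∅)
    (hdec : ∀ l ∈ S.T, IsDec l (L.D l)) (hU : Un 𝒬 K ta da)
    (hP : ∀ (B : Type) [CommRing B] ψ t d, 𝒬 B ψ t d → Pf F γ p r (In S.T ∅) ψ t d)
    (hK : ∀ f, (∀ (B : Type) [CommRing B] ψ t d, 𝒬 B ψ t d → ψ f = 0) → f ∈ K)
    (hC : ∀ (B : Type) [CommRing B] ψ t d, 𝒬 B ψ t d → ∀ g ∈ L.DD,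
      (d g : B) = ψ (c (L.r g).det))
    (q : Ideal A) (hq : q.IsPrime) (hKq : K ≤ q) (hπ : ∀ o ∈ maximalIdeal O, c o ∈ q)
    (hd : ringKrullDim (A ⧸ q) = 1) :
    ∃ (V : Type) (_ : CommRing V) (_ : IsDomain V) (_ : IsDiscreteValuationRing V) (_ : CharP V 2)
      (_ : IsAdicComplete (maximalIdeal V) V) (_ : Finite (ResidueField V)) (t : V)
      (ρ : GQ →* GL (Fin 2) V) (θ : A →+* V), Irreducible t ∧ RingHom.ker θ = q ∧
      (∀ f ∈ maximalIdeal A, θ f ∈ maximalIdeal V) ∧ Tw.Cd S L t (θ.comp c) ρ ∧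
      (∀ g, (ρ g : M2 V).trace = θ (ta g) ∧ θ (da g) = 1) ∧
      (∀ w, θ (p w) = (ρ (wd γ w) : M2 V).trace) ∧ (∀ i, θ (r i) = 1) ∧
      ∀ g, (∀ z, (ρ (z * g) : M2 V).trace = (ρ z : M2 V).trace) → ρ g = 1 := by
  have h2F : (2 : F) = 0 := CharP.cast_eq_zero F 2
  have h2 : (2 : A) ∈ q := by
    rw [← map_ofNat c 2]
    exact hπ 2 ((hL.ker 2).1 (by rw [map_ofNat, h2F]))
  have jd : ∀ g, c (L.r g).det - 1 ∈ q := fun g => by
    have := hπ ((L.r g).det - 1) ((hL.ker _).1 (by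
      rw [map_sub, map_one, RingHom.map_det, RingHom.mapMatrix_apply, hL.lift, hL.det, sub_self]))
    rwa [map_sub, map_one] at this
  obtain ⟨V, _, _, _, _, _, _, s, θ, ρ, hs, hk, hl, r1, r2, r3, r4, r5, r7, r6⟩ :=
    crvF hU hP hK q hq hKq h2 hd L.DD (fun g hg => by
      have := add_mem (hKq (hK (da g - c (L.r g).det) fun B _ ψ t d k => by
        rw [map_sub, (hU.ev B ψ t d k g).2, hC B ψ t d k g hg, sub_self])) (jd g)
      rwa [sub_add_sub_cancel] at this) fun Γ _ η a1 a2 a3 a4 =>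
      det1 hL η a1 a2 (fun g hg => a3 g (Or.inl hg)) (a3 _ (Or.inr (Or.inl rfl)))
        (fun l hl => a3 _ (Or.inr (Or.inr (Or.inl ⟨l, hl, rfl⟩))))
        fun l b1 b2 P b3 b4 s b5 => a4 s ⟨l, b1, b2, Finset.notMem_empty l, P, b3, b4, b5⟩
  refine ⟨V, inferInstance, inferInstance, inferInstance, inferInstance, inferInstance,
    inferInstance, s, ρ.toHomUnits, θ, hs, hk, hl, ⟨fun g i j => ?_, fun N => ⟨?_, ?_, ?_, hdec,
      fun l hl P hP g hg => ?_⟩, fun g => (r1 g).2.1, fun l hl => ?_⟩,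
    fun g => ⟨(r1 g).1, (r1 g).2.2⟩, r2, r3, fun g hg => Units.ext (r7 g hg)⟩
  · have e : S.red (L.r g i j - (1 : M2 O) i j) = 0 := by
      have a1 : (L.r g).map S.red = (1 : M2 O).map S.red := by
        rw [hL.lift, P022D.R.map_one']
        exact congrArg Units.val (h1 g)
      rw [map_sub, sub_eq_zero]
      exact congrFun (congrFun a1 i) j
    have a2 := hπ _ ((hL.ker _).1 e)
    rw [← hk, RingHom.mem_ker, map_sub, map_sub, sub_eq_zero] at a2
    have a3 : θ (c ((1 : M2 O) i j)) = (1 : M2 V) i j :=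
      congrFun (congrFun (P022D.R.map_one' (θ.comp c)) i) j
    rw [RingHom.comp_apply, a2, a3]
    exact r4 g i j
  · have e : {g : GQ | _root_.P022G.Sel.rd (_root_.P022G.Sel.tI s N) ρ.toHomUnits g = 1} =
        {g | (ρ g).map (Ideal.Quotient.mk (Ideal.span {s ^ N})) = 1} :=
      Set.ext fun g => ⟨fun e => congrArg Units.val e, fun e => Units.ext e⟩
    rw [e]
    exact r6 N
  · rw [hL.hT]; exact Finset.mem_insert_self _ _
  · rw [hL.hT]; exact Finset.mem_insert_of_mem (Finset.mem_insert_self _ _)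
  · have h1 : ρ.toHomUnits g = 1 :=
      Units.ext (r5 g ⟨l, hP.1, hl, Finset.notMem_empty l, P, hP.2.1, hP.2.2, hg⟩)
    show Matrix.GeneralLinearGroup.map _ (ρ.toHomUnits g) = 1
    rw [h1, map_one]
  · rw [hW] at hl
    exact absurd hl (Finset.notMem_empty l)

end Vale.Agent.P022S.Crv
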