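import Vale.Agent.P022S.Crv.Main
import Vale.Agent.P022S.Mod.Dp

/-!
P022S: the representation over a curve, for the family of the good ideals.
-/

set_option linter.all false

noncomputable section

namespace Vale.Agent.P022S.Crv

open NumberField IsLocalRing
open Vale.Agent.P022 Vale.Agent.P022.H346 Vale.Agent.P022S.R Vale.Agent.P022S.Loc
open Vale.Agent.P022S.Uni Vale.Agent.P022S.Mod Vale.Agent.P022G.Mod
open Vale.Agent.P027M.S (Inert mx)
open Vale.Agent.P022D.Sel (M2 IsDec)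
open Vale.Agent.P022D.Core (Coef)
open Vale.Agent.P022D.PA (Base)
open Vale.Agent.P022E.Loc (Pl)
open Vale.Agent.P022E.As (Tg cc tt dd yy Gw mT ev0)
open Vale.Agent.P022F.End0 (evc evt evd evy)
open Vale.Agent.P022G.Word (wd)

variable {O F : Type} [CommRing O] [IsDomain O] [IsDiscreteValuationRing O] [Coef O] [Field F]
  {S : Dat O F} {L : Pl O} {ϖ : O} {T Q : Finset ℕ} {r : ℕ} {a : Ideal (Tg O)}

theorem mT_max (ρ : GQ →* M2 O) : (mT ρ).IsMaximal :=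
  Ideal.comap_isMaximal_of_surjective _ fun o => ⟨cc o, evc ρ o⟩

/-- a good ideal is contained in the maximal ideal -/
theorem le_mT (H : Fs ϖ L T) (h : Gw ϖ L T Q r a) (h1 : a ≠ ⊤) : a ≤ mT L.r := by
  obtain ⟨n, hn⟩ := H.nil h
  obtain ⟨M, hM, e⟩ := Ideal.exists_le_maximal a h1
  exact e.trans ((mT_max L.r).eq_of_le hM.ne_top (hM.isPrime.le_of_pow_le (hn.trans e))).ge

/-- the residue map of a good quotient -/
theorem ex_res (H : Fs ϖ L T) (red : O →+* F) (hk : ∀ c, red c = 0 ↔ c ∈ maximalIdeal O)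
    (h : Gw ϖ L T Q r a) (h1 : a ≠ ⊤) : ∃ π : Tg O ⧸ a →+* F, (∀ u, π u ≠ 0 → IsUnit u) ∧
      ∀ x, π (Ideal.Quotient.mk a x) = red (ev0 L.r x) := by
  refine ⟨Ideal.Quotient.lift a (red.comp (ev0 L.r)) fun x hx => (hk _).2 (le_mT H h h1 hx),
    fun u hu => ?_, fun _ => rfl⟩
  obtain ⟨x, rfl⟩ := Ideal.Quotient.mk_surjective u
  obtain ⟨n, hn⟩ := H.nil h
  obtain ⟨y, z, hz, e⟩ := (mT_max L.r).exists_inv (x := x) fun c => hu ((hk _).2 c)
  have e1 : IsNilpotent (Ideal.Quotient.mk a z) :=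
    ⟨n, by rw [← map_pow]; exact Ideal.Quotient.eq_zero_iff_mem.2 (hn (Ideal.pow_mem_pow hz n))⟩
  have e2 := e1.isUnit_one_sub
  rw [← map_one (Ideal.Quotient.mk a), ← map_sub, ← e, add_sub_cancel_right, map_mul] at e2
  exact isUnit_of_mul_isUnit_right e2

/-- a good quotient is a point -/
theorem pf_gs (H : Fs ϖ L T) (red : O →+* F) (hs : Function.Surjective red)
    (hk : ∀ c, red c = 0 ↔ c ∈ maximalIdeal O) (h : Gs ϖ L T Q r a) (h1 : a ≠ ⊤)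
    {A : Type} [CommRing A] {n : ℕ} {γ : Fin n → GQ} {p : Finset (Fin n) → A} {s : Fin n → A}
    (ψ : A →+* Tg O ⧸ a) (h0 : ∀ o, ∃ f, ψ f = Ideal.Quotient.mk a (cc o))
    (hp : ∀ w, ψ (p w) = Ideal.Quotient.mk a (tt (wd γ w)))
    (hr : ∀ i, ψ (s i) = Ideal.Quotient.mk a (dd (γ i))) :
    Pf F γ p s (In T Q) ψ (tq a) (dq h.gw) := by
  obtain ⟨π, p1, p2⟩ := ex_res H red hk h.gw h1
  refine ⟨h.gw.fin, gw_tf h.gw, ⟨π, p1, fun y => ?_, fun g => ⟨?_, ?_⟩⟩, h.N_open, ?_, hp, hr⟩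
  · obtain ⟨o, rfl⟩ := hs y
    obtain ⟨f, hf⟩ := h0 o
    exact ⟨f, by rw [RingHom.comp_apply, hf, p2, evc]⟩
  · rw [tq, p2, evt]
    exact (hk _).2 (H.tr g)
  · have := (hk _).2 (H.det g)
    rw [map_sub, map_one, sub_eq_zero] at this
    rw [dq_val, p2, evd, ← this]
  · rintro _ ⟨l, a1, a2, a3, P, a4, a5, a6⟩
    exact h.N_unr l a1 a2 a3 P a4 a5 _ a6

/-- **the curve** -/
theorem crvK [CharP F 2] {P : Type} [CommRing P] [Base P] {Φ : ∀ a : Ideal (Tg O), P →+* Tg O ⧸ a}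
    {lam : Tg O →+* P} (hL : OkG L S) (h1 : ∀ g, S.rb g = 1) (hW : L.W = ∅)
    (hdec : ∀ l ∈ S.T, IsDec l (L.D l)) (H : Fs ϖ L S.T)
    (h : Fm (GS ϖ L S.T ∅ 0) Φ (mT L.r)) (l : Lm (GS ϖ L S.T ∅ 0) Φ lam)
    (q : Ideal P) (hq : q.IsPrime) (hK : Kr (GS ϖ L S.T ∅ 0) Φ ≤ q) (hπ : lam (cc ϖ) ∈ q)
    (hd : ringKrullDim (P ⧸ q) = 1) :
    ∃ (V : Type) (_ : CommRing V) (_ : IsDomain V) (_ : IsDiscreteValuationRing V) (_ : CharP V 2)
      (_ : IsAdicComplete (maximalIdeal V) V) (_ : Finite (ResidueField V)) (t : V)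
      (ρ : GQ →* GL (Fin 2) V) (θ : P →+* V), Irreducible t ∧ RingHom.ker θ = q ∧
      (∀ f ∈ maximalIdeal P, θ f ∈ maximalIdeal V) ∧
      Tw.Cd S L t (θ.comp (lam.comp MvPolynomial.C)) ρ ∧
      ∀ g, (ρ g : M2 V).trace = θ (lam (tt g)) ∧ θ (lam (dd g)) = 1 := by
  have := Base.cpl (P := P)
  have := Base.fin (P := P)
  let γ : Fin 0 → GQ := fun _ => 1
  let 𝒬 : Cls P := fun B _ ψ t d =>
    Pf F γ (fun w => lam (tt (wd γ w))) (fun i => lam (dd (γ i))) (In S.T ∅) ψ t d ∧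
      (∀ g, ψ (lam (tt g)) = t g ∧ ψ (lam (dd g)) = d g) ∧
      ∀ g ∈ L.DD, (d g : B) = ψ (lam (cc (L.r g).det))
  obtain ⟨V, _, _, _, _, _, _, t, ρ, θ, a1, a2, a3, a4, a5, -⟩ := crv0 (𝒬 := 𝒬)
    (K := Kr (GS ϖ L S.T ∅ 0) Φ) (ta := fun g => lam (tt g)) (da := fun g => lam (dd g))
    (lam.comp MvPolynomial.C) hL h1 hW hdec ⟨fun B _ ψ t d k => k.2.1, fun k => by
      obtain ⟨a, ha, e⟩ := chev0 h k
      have z : ∀ x ∈ a, lam x ∈ Kr (GS ϖ L S.T ∅ 0) Φ ⊔ maximalIdeal P ^ k := fun x hx =>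
        e ((l a ha x).trans (Ideal.Quotient.eq_zero_iff_mem.2 hx))
      refine ⟨_, Kd.N_normal (gw_tf ha.gw), Gs.N_open ha, fun u hu => ⟨fun y w => ?_, ?_⟩⟩
      · rw [← map_sub]
        exact z _ (Ideal.Quotient.eq.1 (N_mid (gw_tf ha.gw) hu y w))
      · rw [← map_one lam, ← map_sub]
        exact z _ ((mem_N ha.gw).1 hu).2⟩ (fun B _ ψ t d k => k.1) (fun f hf => mem_Kr.2
      fun a ha => by
        by_cases e : a = ⊤
        · have := Ideal.Quotient.subsingleton_iff.2 e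
          exact Subsingleton.elim _ _
        · exact hf _ (Φ a) (tq a) (dq ha.gw) ⟨pf_gs H S.red S.surj hL.ker ha e (Φ a)
            (fun o => h.sur a ha _) (fun w => l a ha _) fun i => l a ha _,
            fun g => ⟨l a ha _, l a ha _⟩, fun g hg => by
              rw [l a ha, dq_val]
              exact Ideal.Quotient.eq.2 (ha.gw.cld g hg)⟩)
    (fun B _ ψ t d k => k.2.2) q hq hK (fun o ho => by
      rw [H.irr.maximalIdeal_eq, Ideal.mem_span_singleton] at ho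
      obtain ⟨c, rfl⟩ := ho
      rw [map_mul]
      exact Ideal.mul_mem_right _ _ hπ) hd
  exact ⟨V, inferInstance, inferInstance, inferInstance, inferInstance, inferInstance,
    inferInstance, t, ρ, θ, a1, a2, a3, a4, a5⟩

end Vale.Agent.P022S.Crv
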