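import Vale.Agent.P022S.Uni
import Vale.Agent.P022S.Tw.Crv
import Vale.Agent.P022S.Mod.Gw
import Vale.Agent.P022G.Crv.Det1

/-!
P022S: the representation over a curve in a ring of symbols.
-/

set_option linter.all false

noncomputable section

namespace Vale.Agent.P022S.Crv

open NumberField IsLocalRing
open Vale.Agent.P022 Vale.Agent.P022.H346 Vale.Agent.P022S.R Vale.Agent.P022S.Loc
open Vale.Agent.P022S.Uni
open Vale.Agent.P027M.S (Inert mx)
open Vale.Agent.P022D.Sel (M2 IsDec)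
open Vale.Agent.P022E.Loc (Pl)
open Vale.Agent.P022G.Word (wd)
open Vale.Agent.P022G.Crv (odd_two ex_five)
open scoped Pointwise

variable {O F : Type} [CommRing O] [Field F] {S : Dat O F} {L : Pl O}

theorem det1 [IsLocalRing O] (hL : OkG L S) {Γ : Type} [CommGroup Γ] (η : GQ →* Γ)
    (ho : IsOpen {g : GQ | η g = 1}) (two : ∀ g, ∃ k : ℕ, η g ^ 2 ^ k = 1)
    (h2 : ∀ g ∈ P022D.W.dec (L.P 2), η g = 1) (hc : η L.c = 1)
    (ht : ∀ l ∈ L.W ∪ L.C, η (L.τ l) = 1)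
    (unr : ∀ l : ℕ, l.Prime → l ∉ S.T → ∀ P : Ideal (𝓞 Qb), P.IsPrime → (l : 𝓞 Qb) ∈ P →
      ∀ s, P027M.S.Inert P s → η s = 1) : ∀ g, η g = 1 := by
  have hN : P022G.Nice.Gd η.ker := by
    refine ⟨inferInstance, ho, fun g => ?_, fun l hl hl2 σ hσ => ?_⟩
    · obtain ⟨k, hk⟩ := two g
      exact ⟨k, by rw [MonoidHom.mem_ker, map_pow, hk]⟩
    · obtain ⟨P, hP, hlP, hx⟩ := hσ
      rw [MonoidHom.mem_ker]
      by_cases hT : l ∈ S.T
      · have hm : l ∈ L.W ∪ L.C := by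
          rw [hL.hT, Finset.mem_insert, Finset.mem_insert] at hT
          rcases hT with h | h | h
          · exact absurd h hl.ne_zero
          · exact absurd h hl2
          · exact h
        obtain ⟨g, hg⟩ := P027M.F.Tra.trans hl hP (hL.hP l hm).1 hlP (hL.hP l hm).2
        obtain ⟨N, hNt⟩ := (hL.tm l hm).tame Γ η ho
        have hin : g * σ * g⁻¹ ∈ H443.inP (L.P l) := fun x => by
          have := Ideal.smul_mem_pointwise_smul g _ P (hx (g⁻¹ • x))
          rw [smul_sub, smul_inv_smul, ← hg] at this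
          rw [mul_smul, mul_smul]
          exact this
        obtain ⟨k, p, hp, e⟩ := hNt.cyc _ hin
        obtain ⟨m, hm1, hm2⟩ := hNt.odd p hp
        obtain ⟨j, hj⟩ := two p
        have e1 : η p = 1 := odd_two hm1 hm2 hj
        have e2 := congrArg η e
        rw [map_mul, map_mul, map_inv, map_mul, map_pow, ht l hm, e1, one_pow, mul_one,
          mul_comm (η g), mul_inv_cancel_right] at e2
        exact e2
      · exact unr l hl hT P hP hlP σ hx
  obtain ⟨γ, hγ, e5⟩ := ex_five (P := L.P 2) (by rw [hL.h2]; exact P022D.Loc2.PP_prime 2)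
    (by rw [hL.h2]; exact P022D.Loc2.p_mem_PP 2)
  have hgen := P022G.Nice.gen hN hL.cj e5
  intro g
  have hx : QuotientGroup.mk' η.ker g ∈ Subgroup.closure
      {QuotientGroup.mk' η.ker L.c, QuotientGroup.mk' η.ker γ} := by rw [hgen]; trivial
  have hb : Subgroup.closure {QuotientGroup.mk' η.ker L.c, QuotientGroup.mk' η.ker γ} ≤ ⊥ := by
    rw [Subgroup.closure_le]
    rintro y (rfl | rfl)
    · exact (QuotientGroup.eq_one_iff _).2 hc
    · exact (QuotientGroup.eq_one_iff _).2 (h2 γ hγ)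
  exact (QuotientGroup.eq_one_iff _).1 (hb hx)

/-- the inertia elements outside `T` and `Q` -/
def In (T Q : Finset ℕ) : Set GQ := {s | ∃ l : ℕ, l.Prime ∧ l ∉ T ∧ l ∉ Q ∧
  ∃ P : Ideal (𝓞 Qb), P.IsPrime ∧ (l : 𝓞 Qb) ∈ P ∧ Inert P s}

theorem gn_of {T Q : Finset ℕ} {n : ℕ} {γ : Fin n → GQ} (h : Mod.Gen2 T Q γ) :
    Gn γ (In T Q) := fun K _ h1 h2 h3 g =>
  h.mod K h1 h2 (fun l a1 a2 a3 P a4 a5 s a6 => h3 s ⟨l, a1, a2, a3, P, a4, a5, a6⟩) g

/-- **the curve** -/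
theorem crv0 [IsLocalRing O] [CharP F 2] {A : Type} [CommRing A] [IsLocalRing A]
    [IsNoetherianRing A] [IsAdicComplete (maximalIdeal A) A] [Finite (ResidueField A)]
    {n : ℕ} {γ : Fin n → GQ} {p : Finset (Fin n) → A} {r : Fin n → A} {𝒬 : Cls A} {K : Ideal A}
    {ta da : GQ → A} (c : O →+* A) (hL : OkG L S) (h1 : ∀ g, S.rb g = 1) (hW : L.W = ∅)
    (hdec : ∀ l ∈ S.T, IsDec l (L.D l)) (hU : Un 𝒬 K ta da)
    (hP : ∀ (B : Type) [CommRing B] ψ t d, 𝒬 B ψ t d → Pf F γ p r (In S.T ∅) ψ t d)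
    (hK : ∀ f, (∀ (B : Type) [CommRing B] ψ t d, 𝒬 B ψ t d → ψ f = 0) → f ∈ K)
    (hC : ∀ (B : Type) [CommRing B] ψ t d, 𝒬 B ψ t d → ∀ g ∈ L.DD,
      (d g : B) = ψ (c (L.r g).det))
    (q : Ideal A) (hq : q.IsPrime) (hKq : K ≤ q) (hπ : ∀ o ∈ maximalIdeal O, c o ∈ q)
    (hd : ringKrullDim (A ⧸ q) = 1) :
    ∃ (V : Type) (_ : CommRing V) (_ : IsDomain V) (_ : IsDiscreteValuationRing V) (_ : CharP V 2)
      (_ : IsAdicComplete (maximalIdeal V) V) (_ : Finite (ResidueField V)) (t : V)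
      (ρ : GQ →* GL (Fin 2) V) (θ : A →+* V), Irreducible t ∧ RingHom.ker θ = q ∧
      (∀ f ∈ maximalIdeal A, θ f ∈ maximalIdeal V) ∧ Tw.Cd S L t (θ.comp c) ρ ∧
      (∀ g, (ρ g : M2 V).trace = θ (ta g) ∧ θ (da g) = 1) ∧
      (∀ w, θ (p w) = (ρ (wd γ w) : M2 V).trace) ∧ ∀ i, θ (r i) = 1 := by
  have h2F : (2 : F) = 0 := CharP.cast_eq_zero F 2
  have h2 : (2 : A) ∈ q := by
    rw [← map_ofNat c 2]
    exact hπ 2 ((hL.ker 2).1 (by rw [map_ofNat, h2F]))
  have jd : ∀ g, c (L.r g).det - 1 ∈ q := fun g => by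
    have := hπ ((L.r g).det - 1) ((hL.ker _).1 (by
      rw [map_sub, map_one, RingHom.map_det, RingHom.mapMatrix_apply, hL.lift, hL.det, sub_self]))
    rwa [map_sub, map_one] at this
  obtain ⟨V, _, _, _, _, _, _, s, θ, ρ, hs, hk, hl, r1, r2, r3, r4, r5, r6⟩ :=
    hU.crv hP hK q hq hKq h2 hd L.DD (fun g hg => by
      have := add_mem (hKq (hK (da g - c (L.r g).det) fun B _ ψ t d k => by
        rw [map_sub, (hU.ev B ψ t d k g).2, hC B ψ t d k g hg, sub_self])) (jd g)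
      rwa [sub_add_sub_cancel] at this) fun Γ _ η a1 a2 a3 a4 =>
      det1 hL η a1 a2 (fun g hg => a3 g (Or.inl hg)) (a3 _ (Or.inr (Or.inl rfl)))
        (fun l hl => a3 _ (Or.inr (Or.inr (Or.inl ⟨l, hl, rfl⟩))))
        fun l b1 b2 P b3 b4 s b5 => a4 s ⟨l, b1, b2, Finset.notMem_empty l, P, b3, b4, b5⟩
  refine ⟨V, inferInstance, inferInstance, inferInstance, inferInstance, inferInstance,
    inferInstance, s, ρ.toHomUnits, θ, hs, hk, hl, ⟨fun g i j => ?_, fun N => ⟨?_, ?_, ?_, hdec,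
      fun l hl P hP g hg => ?_⟩, fun g => (r1 g).2.1, fun l hl => ?_⟩,
    fun g => ⟨(r1 g).1, (r1 g).2.2⟩, r2, r3⟩
  · have e : S.red (L.r g i j - (1 : M2 O) i j) = 0 := by
      have a1 : (L.r g).map S.red = (1 : M2 O).map S.red := by
        rw [hL.lift, P022D.R.map_one']
        exact congrArg Units.val (h1 g)
      rw [map_sub, sub_eq_zero]
      exact congrFun (congrFun a1 i) j
    have a2 := hπ _ ((hL.ker _).1 e)
    rw [← hk, RingHom.mem_ker, map_sub, map_sub, sub_eq_zero] at a2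
    have a3 : θ (c ((1 : M2 O) i j)) = (1 : M2 V) i j :=
      congrFun (congrFun (P022D.R.map_one' (θ.comp c)) i) j
    rw [RingHom.comp_apply, a2, a3]
    exact r4 g i j
  · have e : {g : GQ | _root_.P022G.Sel.rd (_root_.P022G.Sel.tI s N) ρ.toHomUnits g = 1} =
        {g | (ρ g).map (Ideal.Quotient.mk (Ideal.span {s ^ N})) = 1} :=
      Set.ext fun g => ⟨fun e => congrArg Units.val e, fun e => Units.ext e⟩
    rw [e]
    exact r6 N
  · rw [hL.hT]; exact Finset.mem_insert_self _ _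
  · rw [hL.hT]; exact Finset.mem_insert_of_mem (Finset.mem_insert_self _ _)
  · have h1 : ρ.toHomUnits g = 1 :=
      Units.ext (r5 g ⟨l, hP.1, hl, Finset.notMem_empty l, P, hP.2.1, hP.2.2, hg⟩)
    show Matrix.GeneralLinearGroup.map _ (ρ.toHomUnits g) = 1
    rw [h1, map_one]
  · rw [hW] at hl
    exact absurd hl (Finset.notMem_empty l)

end Vale.Agent.P022S.Crv
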